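import Vale.Agent.P011Z.Cl.Prc

/-!
Moufang triples, and transitivity on the singular vectors with nonzero diagonal.
-/

open Matrix Module

noncomputable section

namespace Vale.Agent.P011Z.Cl.Hur0x

open Vale.Agent.P011.D4 Vale.Agent.P011.D4.Oct Vale.Agent.P011.E6 Vale.Agent.P011.E6.Alb Prcx

/-- Left multiplication. -/
def lm (a : O) (h : norm a ≠ 0) : O ≃ₗ[Om] O where
  toFun y := a * y
  invFun y := (norm a)⁻¹ • (star a * y)
  map_add' := mul_add a
  map_smul' t y := mul_smul_oct t a y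
  left_inv y := by
    change (norm a)⁻¹ • (star a * (a * y)) = y
    rw [star_mul_mul, smul_smul, inv_mul_cancel₀ h, one_smul]
  right_inv y := by
    change a * ((norm a)⁻¹ • (star a * y)) = y
    rw [mul_smul_oct, mul_star_mul, smul_smul, inv_mul_cancel₀ h, one_smul]

/-- Right multiplication. -/
def rm (a : O) (h : norm a ≠ 0) : O ≃ₗ[Om] O where
  toFun y := y * a
  invFun y := (norm a)⁻¹ • (y * star a)
  map_add' x y := add_mul x y a
  map_smul' t y := smul_mul_oct t y a
  left_inv y := by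
    change (norm a)⁻¹ • ((y * a) * star a) = y
    rw [mul_mul_star, smul_smul, inv_mul_cancel₀ h, one_smul]
  right_inv y := by
    change ((norm a)⁻¹ • (y * star a)) * a = y
    rw [smul_mul_oct, mul_star_mul', smul_smul, inv_mul_cancel₀ h, one_smul]

/-- The orbit relation. -/
def Rch (x y : J) : Prop := ∃ ψ : J ≃ₗ[Om] J, Sim 1 ψ ∧ Prm 1 ψ ∧ ψ x = y

theorem Rch.symm {x y : J} (h : Rch x y) : Rch y x := by
  obtain ⟨ψ, h1, h2, h3⟩ := h
  refine ⟨ψ.symm, h1.symm, ?_, by rw [← h3, ψ.symm_apply_apply]⟩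
  have h4 := h2.symm
  rwa [inv_one] at h4

theorem prm_trans {ψ φ : J ≃ₗ[Om] J} (h : Prm 1 ψ) (h' : Prm 1 φ) : Prm 1 (ψ.trans φ) := by
  have h4 := Prm.comp (semi_lin φ) h' h
  rwa [one_mul] at h4

theorem Rch.trans {x y z : J} (h : Rch x y) (h' : Rch y z) : Rch x z := by
  obtain ⟨ψ, h1, h2, h3⟩ := h
  obtain ⟨φ, h1', h2', h3'⟩ := h'
  exact ⟨ψ.trans φ, h1.trans h1', prm_trans h2 h2', by rw [LinearEquiv.trans_apply, h3, h3']⟩

/-- Singular with nonzero diagonal. -/
def Good (x : J) : Prop := adj x = 0 ∧ ∀ i, dg x i ≠ 0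

theorem Good.rch {x y : J} (hx : Good x) (h : Rch x y) : Good y := by
  obtain ⟨ψ, h1, h2, rfl⟩ := h
  obtain ⟨c, hc0, hc⟩ := exists_c h1.toSemi h2
  obtain ⟨t, ht⟩ := exists_t h1 hc0 hc
  refine ⟨h1.sing.mpr hx.1, fun i => ?_⟩
  have h3 : dg (ψ x) i = c i * dg x i := (coord h1.toSemi hc ht x i).1
  rw [h3]
  exact mul_ne_zero (hc0 i) (hx.2 i)

theorem Good.norm_eq {x : J} (hx : Good x) (i : Fin 3) :
    norm (sl x i) = dg x (i + 1) * dg x (i + 2) := by
  have h1 := dg_adj x i
  rw [hx.1, dg_zero] at h1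
  exact (sub_eq_zero.mp h1.symm).symm

theorem Good.norm_ne {x : J} (hx : Good x) (i : Fin 3) : norm (sl x i) ≠ 0 := by
  rw [hx.norm_eq]
  exact mul_ne_zero (hx.2 _) (hx.2 _)

theorem move {c : Fin 3 → Om} (hc : ∀ i, c i ≠ 0) (t : Fin 3 → O ≃ₗ[Om] O)
    (hn : ∀ i y, norm (t i y) = c (i + 1) * c (i + 2) * norm y)
    (h : ∀ x y, star (t 1 x * t 2 y) = c 0 • t 0 (star (x * y))) (x : J) :
    ∃ y, Rch x y ∧ ∀ i, sl y i = t i (sl x i) := by
  obtain ⟨ψ, h1, h2, h3⟩ := sim_of_triple hc t hn h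
  refine ⟨ψ x, ⟨ψ, sim_of_cub h1, fun i => ⟨c i, h2 i⟩, rfl⟩, fun i => ?_⟩
  exact (coord (π := 1) (semi_lin ψ) h2 (t := fun i y => t i y) h3 x i).2

theorem moveA {a : O} (ha : norm a ≠ 0) (x : J) :
    ∃ y, Rch x y ∧ sl y 1 = a * sl x 1 ∧ sl y 2 = sl x 2 * a := by
  have ha' : norm (star a) ≠ 0 := by rwa [Oct.norm_star]
  obtain ⟨y, h1, h2⟩ := move (c := ![1, norm a, norm a]) (by
      intro i
      fin_cases i
      · exact one_ne_zero
      · exact ha
      · exact ha) ![(rm (star a) ha').trans (lm (star a) ha'), lm a ha, rm a ha] (by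
      intro i y
      fin_cases i
      · change norm (star a * (y * star a)) = norm a * norm a * norm y
        rw [Oct.norm_mul, Oct.norm_mul, Oct.norm_star]
        ring
      · change norm (a * y) = norm a * 1 * norm y
        rw [Oct.norm_mul, mul_one]
      · change norm (y * a) = 1 * norm a * norm y
        rw [Oct.norm_mul]
        ring) (by
      intro x y
      change star ((a * x) * (y * a)) = (1 : Om) • (star a * (star (x * y) * star a))
      rw [moufang, star_mul, star_mul a, one_smul]) x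
  exact ⟨y, h1, h2 1, h2 2⟩

theorem moveB {b : O} (hb : norm b ≠ 0) (x : J) :
    ∃ y, Rch x y ∧ sl y 1 = star b * (sl x 1 * star b) ∧ sl y 2 = b * sl x 2 := by
  have hb' : norm (star b) ≠ 0 := by rwa [Oct.norm_star]
  obtain ⟨y, h1, h2⟩ := move (c := ![norm b, 1, norm b]) (by
      intro i
      fin_cases i
      · exact hb
      · exact one_ne_zero
      · exact hb) ![rm b hb, (rm (star b) hb').trans (lm (star b) hb'), lm b hb] (by
      intro i y
      fin_cases i
      · change norm (y * b) = 1 * norm b * norm y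
        rw [Oct.norm_mul]
        ring
      · change norm (star b * (y * star b)) = norm b * norm b * norm y
        rw [Oct.norm_mul, Oct.norm_mul, Oct.norm_star]
        ring
      · change norm (b * y) = norm b * 1 * norm y
        rw [Oct.norm_mul, mul_one]) (by
      intro x y
      change star ((star b * (x * star b)) * (b * y)) = norm b • (star (x * y) * b)
      rw [moufang_left, star_mul_mul, mul_smul_oct, mul_smul_oct, star_smul_oct, star_mul,
        star_star]) x
  exact ⟨y, h1, h2 1, h2 2⟩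

theorem mul_lin (w : O) (p q s t : Om) : (p • (1 : O) + q • w) * (s • (1 : O) + t • w) =
    (p * s - q * t * norm w) • (1 : O) + (p * t + q * s + q * t * bil w 1) • w := by
  simp only [add_mul, mul_add, smul_mul_oct, mul_smul_oct, one_mul, mul_one, mul_self_eq]
  module

theorem norm_lin (w : O) (s : Om) :
    norm (s • (1 : O) + (1 : Om) • w) = s ^ 2 + bil w 1 * s + norm w := by
  rw [one_smul, Oct.norm_add, Oct.norm_smul, Oct.norm_one, bil_smul_left, bil_comm]
  ring

theorem exists_par (T : Om) {N : Om} (hN : N ≠ 0) : ∃ s : Om,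
    s ^ 3 + 3 * T * s ^ 2 + 3 * (T ^ 2 - N) * s + (T ^ 3 - 2 * T * N) = 0 ∧
      s ^ 2 + T * s + N ≠ 0 := by
  by_cases hd : T ^ 2 - 4 * N = 0
  · refine ⟨-2 * T, by linear_combination (-T) * hd, fun h => hN ?_⟩
    linear_combination (1 / 9 : Om) * h - (2 / 9 : Om) * hd
  · obtain ⟨s, hs⟩ := IsAlgClosed.exists_root (Cubic.toPoly ⟨1, 3 * T, 3 * (T ^ 2 - N),
      T ^ 3 - 2 * T * N⟩) (by
        rw [Cubic.degree_of_a_ne_zero one_ne_zero]
        decide)
    have h1 : s ^ 3 + 3 * T * s ^ 2 + 3 * (T ^ 2 - N) * s + (T ^ 3 - 2 * T * N) = 0 := by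
      rw [Polynomial.IsRoot.def, Cubic.toPoly] at hs
      simp only [Polynomial.eval_add, Polynomial.eval_mul, Polynomial.eval_pow, Polynomial.eval_X,
        Polynomial.eval_C, one_mul] at hs
      exact hs
    refine ⟨s, h1, fun h => ?_⟩
    have h2 : (T ^ 2 - 4 * N) * (s + T) = 0 := by linear_combination h1 - (s + 2 * T) * h
    have h3 : s + T = 0 := (mul_eq_zero.mp h2).resolve_left hd
    exact hN (by linear_combination h - s * h3)

/-- A cube root of the inverse, up to a scalar. -/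
theorem exists_cube {w : O} (hw : norm w ≠ 0) :
    ∃ b : O, norm b ≠ 0 ∧ ∃ μ : Om, ((b * w) * b) * b = μ • (1 : O) := by
  obtain ⟨s, h1, h2⟩ := exists_par (bil w 1) hw
  refine ⟨s • (1 : O) + (1 : Om) • w, by rwa [norm_lin], ?_⟩
  have h3 : (s • (1 : O) + (1 : Om) • w) * w =
      (s • (1 : O) + (1 : Om) • w) * ((0 : Om) • (1 : O) + (1 : Om) • w) := by
    rw [zero_smul, zero_add, one_smul]
  rw [h3, mul_lin, mul_lin, mul_lin]
  refine ⟨_, add_eq_left.mpr (smul_eq_zero_of_left ?_ _)⟩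
  linear_combination h1

theorem of_scalar {y : J} (hy : Good y) {l m : Om} (h1 : sl y 1 = l • (1 : O))
    (h2 : sl y 2 = m • (1 : O)) : Rch ones y := by
  have n1 : l ^ 2 = dg y 2 * dg y 0 := by
    have h3 := hy.norm_eq 1
    rwa [h1, Oct.norm_smul, Oct.norm_one, mul_one] at h3
  have n2 : m ^ 2 = dg y 0 * dg y 1 := by
    have h3 := hy.norm_eq 2
    rwa [h2, Oct.norm_smul, Oct.norm_one, mul_one] at h3
  have d0 := hy.2 0
  have hl : l ≠ 0 := by
    rintro rfl
    exact mul_ne_zero (hy.2 2) d0 (by rw [← n1]; ring)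
  have hm : m ≠ 0 := by
    rintro rfl
    exact mul_ne_zero d0 (hy.2 1) (by rw [← n2]; ring)
  have h0 : sl y 0 = (l * m / dg y 0) • (1 : O) := by
    have h3 := sl_adj y 0
    rw [hy.1, sl_zero] at h3
    change 0 = star (sl y 1 * sl y 2) - _ at h3
    rw [h1, h2, smul_mul_oct, one_mul, smul_smul, star_smul_oct, star_one] at h3
    rw [div_eq_inv_mul, mul_smul, sub_eq_zero.mp h3.symm, smul_smul, inv_mul_cancel₀ d0, one_smul]
  have hz : ∀ i, (![l * m / dg y 0, l, m] : Fin 3 → Om) i ≠ 0 := by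
    intro i
    fin_cases i
    · exact div_ne_zero (mul_ne_zero hl hm) d0
    · exact hl
    · exact hm
  obtain ⟨ψ, hψ, -⟩ := exists_sc hz
  have h4 : (ψ : J → J) = sc ![l * m / dg y 0, l, m] := funext hψ
  refine ⟨ψ, h4 ▸ (sc_sim hz).1, h4 ▸ (sc_sim hz).2, ?_⟩
  rw [hψ]
  refine j_ext (fun i => ?_) fun i => ?_
  · rw [dg_sc, ones, dg_jm, Pi.one_apply, mul_one]
    fin_cases i
    · change l * m / (l * m / dg y 0) = dg y 0
      field_simp
    · change m * (l * m / dg y 0) / l = dg y 1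
      field_simp
      linear_combination n2
    · change (l * m / dg y 0) * l / m = dg y 2
      field_simp
      linear_combination n1
  · rw [sl_sc, ones, sl_jm, Pi.one_apply]
    fin_cases i
    · exact h0.symm
    · exact h1.symm
    · exact h2.symm

theorem Good.ones {x : J} (hx : Good x) : Rch ones x := by
  obtain ⟨y1, r1, a1, -⟩ := moveA (a := star (sl x 1)) (by
    rw [Oct.norm_star]; exact hx.norm_ne 1) x
  rw [Oct.star_mul_self] at a1
  have g1 := hx.rch r1
  obtain ⟨b, hb, μ, hμ⟩ := exists_cube (g1.norm_ne 2)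
  obtain ⟨y2, r2, a2, b2⟩ := moveB hb y1
  obtain ⟨y3, r3, a3, b3⟩ := moveA hb y2
  obtain ⟨y4, r4, a4, b4⟩ := moveA hb y3
  have r := ((r1.trans r2).trans r3).trans r4
  refine (of_scalar (hx.rch r) (l := norm (sl x 1) * norm b * norm b) (m := μ) ?_ ?_).trans r.symm
  · rw [a4, a3, a2, a1, mul_star_mul, smul_mul_oct, one_mul, mul_smul_oct, mul_smul_oct,
      Oct.mul_star_self, smul_smul, smul_smul, mul_comm (norm b)]
  · rw [b4, b3, b2, hμ]

end Vale.Agent.P011Z.Cl.Hur0x

end
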